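import Mathlib

/-!
Coordinate balls of `ℝ^m` and their slices.
-/

open MeasureTheory Set
open scoped ENNReal Pointwise

namespace Vale.Agent.P219.Warped

/-- The open Euclidean ball of radius `r` about `0` in coordinates. -/
def bal (m : ℕ) (r : ℝ) : Set (Fin m → ℝ) := {v | 0 < r ∧ ∑ i, v i ^ 2 < r ^ 2}

/-- The volume of the unit ball of `ℝ^m`. -/
noncomputable def omega (m : ℕ) : ℝ := (volume (bal m 1)).toReal

/-- The weight `(1 - s²)^(m/2)`. -/
noncomputable def wt (m : ℕ) (s : ℝ) : ℝ := Real.sqrt (1 - s ^ 2) ^ m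

/-- The mass of the weight on `(-1, 1)`. -/
noncomputable def mass (m : ℕ) : ℝ := ∫ s in (-1 : ℝ)..1, wt m s

lemma continuous_wt (m : ℕ) : Continuous (wt m) := by
  unfold wt; fun_prop

lemma wt_nonneg (m : ℕ) (s : ℝ) : 0 ≤ wt m s := pow_nonneg (Real.sqrt_nonneg _) _

lemma wt_pos (m : ℕ) {s : ℝ} (h : s ∈ Ioo (-1 : ℝ) 1) : 0 < wt m s := by
  unfold wt
  have : 0 < 1 - s ^ 2 := by nlinarith [h.1, h.2]
  positivity

lemma isOpen_bal (m : ℕ) (r : ℝ) : IsOpen (bal m r) := by
  by_cases hr : 0 < r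
  · rw [show bal m r = {v | ∑ i, v i ^ 2 < r ^ 2} by ext v; simp [bal, hr]]
    exact isOpen_lt (by fun_prop) continuous_const
  · rw [show bal m r = ∅ by ext v; simp [bal, hr]]
    exact isOpen_empty

lemma bal_one_subset (m : ℕ) : bal m 1 ⊆ Icc (fun _ => (-1 : ℝ)) (fun _ => 1) := fun v hv => by
  have h : ∀ i, |v i| ≤ 1 := fun i => by
    have h1 : v i ^ 2 ≤ ∑ j, v j ^ 2 :=
      Finset.single_le_sum (f := fun j => v j ^ 2) (fun j _ => sq_nonneg _) (Finset.mem_univ i)
    exact abs_le_of_sq_le_sq (by nlinarith [hv.2]) zero_le_one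
  exact ⟨fun i => (abs_le.1 (h i)).1, fun i => (abs_le.1 (h i)).2⟩

lemma volume_bal_one_ne_top (m : ℕ) : volume (bal m 1) ≠ ⊤ :=
  ne_top_of_le_ne_top isCompact_Icc.measure_lt_top.ne (measure_mono (bal_one_subset m))

lemma omega_nonneg (m : ℕ) : 0 ≤ omega m := ENNReal.toReal_nonneg

lemma omega_pos (m : ℕ) : 0 < omega m :=
  ENNReal.toReal_pos ((isOpen_bal m 1).measure_pos volume ⟨0, by simp [bal]⟩).ne'
    (volume_bal_one_ne_top m)

lemma volume_bal (m : ℕ) {r : ℝ} (hr : 0 < r) :
    volume (bal m r) = ENNReal.ofReal (r ^ m * omega m) := by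
  have e : bal m r = r • bal m 1 := by
    ext v
    rw [mem_smul_set_iff_inv_smul_mem₀ hr.ne']
    simp only [bal, mem_ofPred_eq, hr, true_and, zero_lt_one, one_pow, Pi.smul_apply, smul_eq_mul,
      mul_pow, ← Finset.mul_sum]
    rw [inv_pow, inv_mul_lt_iff₀ (by positivity), mul_one]
  rw [e, Measure.addHaar_smul_of_nonneg volume hr.le, Module.finrank_fin_fun,
    ENNReal.ofReal_mul (by positivity), omega, ENNReal.ofReal_toReal (volume_bal_one_ne_top m)]

lemma mass_pos (m : ℕ) : 0 < mass m := by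
  refine intervalIntegral.integral_pos (by norm_num) (continuous_wt m).continuousOn
    (fun x _ => wt_nonneg m x) ⟨0, by norm_num, wt_pos m (by norm_num)⟩

/-- Slicing the unit ball. -/
lemma omega_succ (m : ℕ) : omega (m + 1) = omega m * mass m := by
  have e := (volume_preserving_piFinSuccAbove (fun _ : Fin (m + 1) => ℝ) 0).symm
  set B := {p : ℝ × (Fin m → ℝ) | p.1 ^ 2 + ∑ i, p.2 i ^ 2 < 1}
  have hB : MeasurableSet B := (isOpen_lt (by fun_prop) continuous_const).measurableSet
  have h1 : volume (bal (m + 1) 1) = volume B := by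
    rw [← e.measure_preimage (isOpen_bal _ _).measurableSet.nullMeasurableSet]
    congr 1
    ext ⟨s, v⟩
    simp [bal, B, MeasurableEquiv.piFinSuccAbove_symm_apply, Fin.sum_univ_succ,
      Fin.insertNthEquiv]
  have h2 : ∀ s : ℝ, volume (Prod.mk s ⁻¹' B)
      = (Ioo (-1 : ℝ) 1).indicator (fun s => ENNReal.ofReal (wt m s * omega m)) s := by
    intro s
    by_cases hs : s ∈ Ioo (-1 : ℝ) 1
    · rw [indicator_of_mem hs]
      have h : 0 < 1 - s ^ 2 := by nlinarith [hs.1, hs.2]
      rw [wt, ← volume_bal m (Real.sqrt_pos.2 h)]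
      congr 1
      ext v
      simp [bal, B, h, Real.sq_sqrt h.le, lt_sub_iff_add_lt']
    · rw [indicator_of_notMem hs]
      refine measure_mono_null (fun v hv => ?_) measure_empty
      have h3 : s ^ 2 < 1 := lt_of_le_of_lt
        (le_add_of_nonneg_right (Finset.sum_nonneg fun i _ => sq_nonneg (v i))) hv
      exact hs ⟨by nlinarith, by nlinarith⟩
  rw [omega, h1, Measure.volume_eq_prod, Measure.prod_apply hB]
  simp only [h2]
  have hi : IntegrableOn (fun s => wt m s * omega m) (Ioo (-1 : ℝ) 1) :=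
    (((continuous_wt m).mul continuous_const).integrableOn_Icc).mono_set Ioo_subset_Icc_self
  rw [lintegral_indicator measurableSet_Ioo, ← ofReal_integral_eq_lintegral_ofReal hi
    (Filter.Eventually.of_forall fun s => mul_nonneg (wt_nonneg m s) (omega_nonneg m)),
    ENNReal.toReal_ofReal (setIntegral_nonneg measurableSet_Ioo fun s _ =>
      mul_nonneg (wt_nonneg m s) (omega_nonneg m)), integral_mul_const, mass,
    intervalIntegral.integral_of_le (by norm_num), integral_Ioc_eq_integral_Ioo, mul_comm]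

/-- The coordinate ball is the Euclidean one. -/
lemma omega_eq (m : ℕ) :
    omega m = (volume (Metric.ball (0 : EuclideanSpace ℝ (Fin m)) 1)).toReal := by
  rw [omega, ← (PiLp.volume_preserving_ofLp (Fin m)).measure_preimage
    (isOpen_bal m 1).measurableSet.nullMeasurableSet]
  congr 2
  ext v
  simp [bal, EuclideanSpace.norm_eq, Real.sqrt_lt' one_pos]

end Vale.Agent.P219.Warped
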