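import Vale.Agent.P219.Warped.Step

/-!
Brunn–Minkowski against balls by induction on the dimension, and the isoperimetric inequality in
multiply warped spaces with log-convex warping functions.
-/

open MeasureTheory Set Filter Topology
open scoped ENNReal

namespace Vale.Agent.P219.Warped

variable {m : ℕ}

lemma wvol_zero (m : ℕ) : wvol (fun _ : Fin m => fun _ : ℝ => (0 : ℝ)) = volume := by
  simp [wvol, rho]

/-- Brunn–Minkowski against balls, in every dimension. -/
theorem bm (m : ℕ) : BM m := by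
  induction m with
  | zero =>
    intro A M R r _ _ hr h
    rcases A.eq_empty_or_nonempty with rfl | ⟨a, ha⟩
    · simp
    · have hM : (univ : Set (Fin 0 → ℝ)) ⊆ M := fun x _ => by
        have := h a ha 0 (by simp [hr])
        rwa [Subsingleton.elim (a + 0) x] at this
      refine le_trans ?_ (measure_mono hM)
      rw [eq_univ_of_forall (s := A) fun x => (Subsingleton.elim a x) ▸ ha]
      simp
  | succ m ih =>
    intro A M R r hA hR hr h
    obtain ⟨M', hMM, hM'm, hM'⟩ := exists_measurable_superset volume M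
    set e := MeasurableEquiv.piFinSuccAbove (fun _ : Fin (m + 1) => ℝ) 0
    have he := (volume_preserving_piFinSuccAbove (fun _ : Fin (m + 1) => ℝ) 0).symm
    have happ : ∀ p : ℝ × (Fin m → ℝ), e.symm p = Fin.cons p.1 p.2 := fun p => by
      simp [e, MeasurableEquiv.piFinSuccAbove_symm_apply, Fin.insertNthEquiv]
    have hvA : volume (e.symm ⁻¹' A) = volume A := he.measure_preimage hA.nullMeasurableSet
    have hfin : volume A ≠ ⊤ := by
      refine ne_top_of_le_ne_top (isCompact_Icc (a := fun _ : Fin (m + 1) => -|R|)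
        (b := fun _ => |R|)).measure_lt_top.ne (measure_mono fun v hv => ?_)
      exact ⟨fun i => (abs_le.1 ((hR v hv i).le.trans (le_abs_self R))).1,
        fun i => (abs_le.1 ((hR v hv i).le.trans (le_abs_self R))).2⟩
    have hstep := step (φ := fun _ : Fin m => fun _ : ℝ => (0 : ℝ)) (E := e.symm ⁻¹' A)
      (N := e.symm ⁻¹' M') (R := R) (L := 0) (ε := r) ih (fun _ => convexOn_const 0 convex_univ)
      (e.symm.measurable hA) (fun p hp => ?_) (by rwa [wvol_zero, hvA]) hr le_rfl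
      (fun t h _ _ => by simp) (fun p hp τ hτ v hv => ?_)
    · rw [wvol_zero, hvA, he.measure_preimage hM'm.nullMeasurableSet, hM'] at hstep
      simpa using hstep
    · have h1 := hR _ hp
      rw [happ] at h1
      exact ⟨by simpa using h1 0, fun i => by simpa using h1 i.succ⟩
    · show e.symm _ ∈ M'
      rw [happ]
      have key := h _ hp (Fin.cons (r * τ) v) ?_
      · refine hMM ?_
        convert key using 1
        rw [happ]
        ext i
        refine Fin.cases ?_ (fun j => ?_) i <;> simp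
      · simp only [max_self, Real.exp_zero, one_mul] at hv
        rw [Fin.sum_univ_succ]
        simp only [Fin.cons_zero, Fin.cons_succ]
        nlinarith

/-- The squared speed of a curve `(a, b)` at time `t` for `dt² + ∑ exp (2 φ j t) dy_j²`. -/
noncomputable def speedSq (φ : Fin m → ℝ → ℝ) (t : ℝ) (v : ℝ × (Fin m → ℝ)) : ℝ :=
  v.1 ^ 2 + ∑ j, (Real.exp (φ j t) * v.2 j) ^ 2

/-- The open Riemannian `ε`-neighbourhood of `E`: ends of `C¹` curves from `E` shorter than `ε`. -/
def nbhd (φ : Fin m → ℝ → ℝ) (ε : ℝ) (E : Set (ℝ × (Fin m → ℝ))) : Set (ℝ × (Fin m → ℝ)) :=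
  {q | ∃ γ : ℝ → ℝ × (Fin m → ℝ), ContDiff ℝ 1 γ ∧ γ 0 ∈ E ∧ γ 1 = q ∧
    ∫ s in (0 : ℝ)..1, Real.sqrt (speedSq φ (γ s).1 (deriv γ s)) < ε}

lemma mem_nbhd {φ : Fin m → ℝ → ℝ} (hφ : ∀ j, ConvexOn ℝ univ (φ j)) {E : Set (ℝ × (Fin m → ℝ))}
    {p : ℝ × (Fin m → ℝ)} (hp : p ∈ E) {ε τ : ℝ} (hε : 0 < ε) {v : Fin m → ℝ}
    (hv : ∑ j, (Real.exp (max (φ j p.1) (φ j (p.1 + ε * τ))) * v j) ^ 2 < ε ^ 2 * (1 - τ ^ 2)) :
    (p.1 + ε * τ, p.2 + v) ∈ nbhd φ ε E := by
  set w : ℝ × (Fin m → ℝ) := (ε * τ, v)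
  set γ : ℝ → ℝ × (Fin m → ℝ) := fun s => p + s • w
  have hγ : ∀ s, HasDerivAt γ w s := fun s => by
    have h := ((hasDerivAt_id s).smul_const w).const_add p
    rwa [one_smul] at h
  refine ⟨γ, by fun_prop, by simpa [γ] using hp, by simp [γ, w, Prod.ext_iff], ?_⟩
  have hφc := fun j => continuous_of_convexOn (hφ j)
  simp only [fun s => (hγ s).deriv]
  set g : ℝ → ℝ := fun s => Real.sqrt (speedSq φ (γ s).1 w)
  have hg : Continuous g := by unfold g speedSq γ; fun_prop
  have hlt : ∀ s ∈ Icc (0 : ℝ) 1, g s < ε := fun s hs => by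
    refine (Real.sqrt_lt' hε).2 ?_
    have hj : ∀ j, φ j (γ s).1 ≤ max (φ j p.1) (φ j (p.1 + ε * τ)) := fun j => by
      refine (hφ j).le_on_segment trivial trivial ⟨1 - s, s, by linarith [hs.2], hs.1, by ring, ?_⟩
      simp [γ, w]; ring
    have h1 : ∑ j, (Real.exp (φ j (γ s).1) * v j) ^ 2
        ≤ ∑ j, (Real.exp (max (φ j p.1) (φ j (p.1 + ε * τ))) * v j) ^ 2 :=
      Finset.sum_le_sum fun j _ => by
        rw [mul_pow, mul_pow]
        gcongr
        exact hj j
    show (ε * τ) ^ 2 + ∑ j, (Real.exp (φ j (γ s).1) * v j) ^ 2 < ε ^ 2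
    linear_combination h1 + hv
  calc ∫ s in (0 : ℝ)..1, g s < ∫ _ in (0 : ℝ)..1, ε :=
        intervalIntegral.integral_lt_integral_of_continuousOn_of_le_of_exists_lt zero_lt_one
          hg.continuousOn continuousOn_const (fun s hs => (hlt s (Ioc_subset_Icc_self hs)).le)
          ⟨1, right_mem_Icc.2 zero_le_one, hlt 1 (right_mem_Icc.2 zero_le_one)⟩
    _ = ε := by simp

/-- The isoperimetric inequality of Euclidean space holds in `ℝ × ℝ^m` with the metric
`dt² + ∑ exp (2 φ j t) dy_j²`, `φ j` convex. -/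
theorem isoperimetric {φ : Fin m → ℝ → ℝ} (hφ : ∀ j, ConvexOn ℝ univ (φ j))
    {E : Set (ℝ × (Fin m → ℝ))} (hE : MeasurableSet E) (hb : Bornology.IsBounded E)
    (hpos : 0 < wvol φ E) {c : ℝ}
    (hc : c < (m + 1 : ℕ) * omega (m + 1) ^ (1 / (m + 1 : ℝ)) *
      (wvol φ E).toReal ^ ((m : ℝ) / (m + 1))) :
    ∀ᶠ ε in 𝓝[>] (0 : ℝ), ENNReal.ofReal ((wvol φ E).toReal + ε * c) ≤ wvol φ (nbhd φ ε E) := by
  have hφc := fun j => continuous_of_convexOn (hφ j)
  obtain ⟨R, hR⟩ := hb.subset_closedBall 0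
  have hbox : ∀ p ∈ E, |p.1| < |R| + 1 ∧ ∀ i, |p.2 i| < |R| + 1 := fun p hp => by
    have h := mem_closedBall_zero_iff.1 (hR hp)
    rw [Prod.norm_def, max_le_iff] at h
    have hR' := le_abs_self R
    exact ⟨by rw [← Real.norm_eq_abs]; linarith [h.1],
      fun i => by rw [← Real.norm_eq_abs]; linarith [norm_le_pi_norm p.2 i, h.2]⟩
  set R' := |R| + 1
  have hR'0 : 0 ≤ R' := by positivity
  have hfin : wvol φ E ≠ ⊤ := by
    obtain ⟨C, hC⟩ := (isCompact_Icc (a := -R') (b := R')).exists_bound_of_continuousOn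
      (f := rho φ) (by unfold rho; fun_prop)
    have hvol : volume E ≠ ⊤ := (hb.measure_lt_top).ne
    rw [wvol, withDensity_apply _ hE]
    refine ne_top_of_le_ne_top (ENNReal.mul_ne_top ENNReal.ofReal_ne_top hvol)
      ((setLIntegral_mono measurable_const fun p hp => ENNReal.ofReal_le_ofReal
        ((le_abs_self _).trans (hC p.1 (abs_le.1 (hbox p hp).1.le)))).trans_eq
        (setLIntegral_const _ _))
  choose d hdm hd using fun j => exists_subgrad (hφ j)
  set L := ∑ j, max |d j (-(R' + 1))| |d j (R' + 1)|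
  have hL : 0 ≤ L := Finset.sum_nonneg fun j _ => le_max_of_le_left (abs_nonneg _)
  have hlip : ∀ ε : ℝ, ε ≤ 1 → ∀ t h, |t| < R' → |h| ≤ ε →
      ∑ j, max (φ j t) (φ j (t + h)) ≤ ∑ j, φ j t + L * ε := fun ε hε t h ht hh => by
    rw [Finset.sum_mul, ← Finset.sum_add_distrib]
    refine Finset.sum_le_sum fun j _ => max_le ?_ ?_
    · have : 0 ≤ max |d j (-(R' + 1))| |d j (R' + 1)| * ε :=
        mul_nonneg (le_max_of_le_left (abs_nonneg _)) ((abs_nonneg h).trans hh)
      linarith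
    · have h1 := hd j (t + h) t
      have ht' := abs_lt.1 ht
      have hh' := abs_le.1 (hh.trans hε)
      have h2 : |d j (t + h)| ≤ max |d j (-(R' + 1))| |d j (R' + 1)| := by
        rw [abs_le]
        constructor
        · linarith [hdm j (show -(R' + 1) ≤ t + h by linarith), neg_abs_le (d j (-(R' + 1))),
            le_max_left |d j (-(R' + 1))| |d j (R' + 1)|]
        · linarith [hdm j (show t + h ≤ R' + 1 by linarith), le_abs_self (d j (R' + 1)),
            le_max_right |d j (-(R' + 1))| |d j (R' + 1)|]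
      have h3 : d j (t + h) * h ≤ max |d j (-(R' + 1))| |d j (R' + 1)| * ε :=
        (le_abs_self _).trans (by
          rw [abs_mul]; exact mul_le_mul h2 hh (abs_nonneg _) ((abs_nonneg _).trans h2))
      linarith
  set V := (wvol φ E).toReal
  have hV : 0 < V := ENNReal.toReal_pos hpos.ne' hfin
  set K := (omega (m + 1) / V) ^ (1 / (m + 1 : ℝ))
  have hK : 0 ≤ K := Real.rpow_nonneg (div_nonneg (omega_nonneg _) hV.le) _
  have hVK : V * K = omega (m + 1) ^ (1 / (m + 1 : ℝ)) * V ^ ((m : ℝ) / (m + 1)) := by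
    simp only [K]
    rw [Real.div_rpow (omega_nonneg _) hV.le,
      show (m : ℝ) / (m + 1) = 1 - 1 / (m + 1 : ℝ) by field_simp; ring,
      Real.rpow_sub hV, Real.rpow_one]
    ring
  have hev : ∀ᶠ ε in 𝓝[>] (0 : ℝ), c < (m + 1 : ℕ) * (V * K) * Real.exp (-(L * ε)) := by
    refine nhdsWithin_le_nhds (ContinuousAt.eventually_lt continuousAt_const (by fun_prop) ?_)
    simpa [hVK, mul_assoc] using hc
  filter_upwards [hev, self_mem_nhdsWithin,
    nhdsWithin_le_nhds (Iic_mem_nhds (zero_lt_one' ℝ))] with ε hεc (hε : 0 < ε) hε1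
  refine le_trans (ENNReal.ofReal_le_ofReal ?_) (step (bm m) hφ hE hbox hfin hε hL
    (hlip ε hε1) fun p hp τ _ v hv => mem_nbhd hφ hp hε hv)
  set δ := ε * Real.exp (-(L * ε))
  calc V + ε * c ≤ V + ε * ((m + 1 : ℕ) * (V * K) * Real.exp (-(L * ε))) := by gcongr
    _ = V * (1 + (m + 1 : ℕ) * (δ * K)) := by simp only [δ]; ring
    _ ≤ V * (1 + δ * K) ^ (m + 1) := by
        gcongr
        exact one_add_mul_le_pow (le_trans (by norm_num) (by positivity : (0 : ℝ) ≤ δ * K)) (m + 1)

end Vale.Agent.P219.Warped
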