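import Vale.Agent.P219.Warped.Transport

/-!
The slicing step: from Brunn–Minkowski for balls in the slices to the neighbourhood inequality
in the warped space.
-/

open MeasureTheory Set Filter Topology
open scoped ENNReal

namespace Vale.Agent.P219.Warped

variable {m : ℕ}

/-- A monotone choice of slopes of supporting lines. -/
lemma exists_subgrad {f : ℝ → ℝ} (hf : ConvexOn ℝ univ f) :
    ∃ d : ℝ → ℝ, Monotone d ∧ ∀ x y, d x * (y - x) ≤ f y - f x := by
  have hi : ∀ x : ℝ, x ∈ interior (univ : Set ℝ) := fun x => by simp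
  refine ⟨fun x => derivWithin f (Ioi x) x, fun a b hab => hf.monotoneOn_rightDeriv (hi a) (hi b) hab,
    fun x y => ?_⟩
  rcases lt_trichotomy y x with h | rfl | h
  · have h1 : slope f y x ≤ derivWithin f (Ioi x) x :=
      (hf.slope_le_of_hasDerivWithinAt_Iio trivial trivial h
        (hf.hasDerivWithinAt_leftDeriv_of_mem_interior (hi x))).trans
        (hf.leftDeriv_le_rightDeriv_of_mem_interior (hi x))
    rw [slope_def_field, div_le_iff₀ (by linarith)] at h1
    linarith
  · simp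
  · have h1 := hf.rightDeriv_le_slope_of_mem_interior (hi x) (mem_univ y) h
    rwa [slope_def_field, le_div_iff₀ (by linarith)] at h1

/-- The volume density `exp (∑ φ j)`. -/
noncomputable def rho (φ : Fin m → ℝ → ℝ) (t : ℝ) : ℝ := Real.exp (∑ j, φ j t)

/-- The warped volume. -/
noncomputable def wvol (φ : Fin m → ℝ → ℝ) : Measure (ℝ × (Fin m → ℝ)) :=
  volume.withDensity fun p => ENNReal.ofReal (rho φ p.1)

lemma measurable_rho {φ : Fin m → ℝ → ℝ} (hφ : ∀ j, Continuous (φ j)) : Measurable (rho φ) := by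
  unfold rho; fun_prop

lemma continuous_of_convexOn {f : ℝ → ℝ} (hf : ConvexOn ℝ univ f) : Continuous f :=
  continuousOn_univ.1 (hf.continuousOn isOpen_univ)

lemma wvol_apply (φ : Fin m → ℝ → ℝ) (hφ : ∀ j, Continuous (φ j)) {A : Set (ℝ × (Fin m → ℝ))}
    (hA : MeasurableSet A) :
    wvol φ A = ∫⁻ t, ENNReal.ofReal (rho φ t) * volume (Prod.mk t ⁻¹' A) := by
  have hm : Measurable fun p : ℝ × (Fin m → ℝ) => ENNReal.ofReal (rho φ p.1) :=
    ENNReal.measurable_ofReal.comp ((measurable_rho hφ).comp measurable_fst)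
  rw [wvol, withDensity_apply _ hA, ← lintegral_indicator hA, Measure.volume_eq_prod,
    lintegral_prod _ (hm.indicator hA).aemeasurable]
  refine lintegral_congr fun t => ?_
  rw [← lintegral_indicator_one (hA.preimage measurable_prodMk_left),
    ← lintegral_const_mul' _ _ ENNReal.ofReal_ne_top]
  refine lintegral_congr fun y => ?_
  by_cases h : (t, y) ∈ A
  · simp [h]
  · simp [h]

/-- Brunn–Minkowski against balls in `ℝ^m`. -/
def BM (m : ℕ) : Prop :=
  ∀ (A M : Set (Fin m → ℝ)) (R r : ℝ), MeasurableSet A → (∀ v ∈ A, ∀ i, |v i| < R) → 0 < r →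
    (∀ a ∈ A, ∀ v, ∑ i, v i ^ 2 < r ^ 2 → a + v ∈ M) →
    ENNReal.ofReal ((volume A).toReal * (1 + r * (omega m / (volume A).toReal) ^ (1 / m : ℝ)) ^ m)
      ≤ volume M

/-- Brunn–Minkowski against ellipsoids. -/
lemma BM.ellipsoid (hBM : BM m) {A M : Set (Fin m → ℝ)} {R r : ℝ} (hA : MeasurableSet A)
    (hR : ∀ v ∈ A, ∀ i, |v i| < R) (hr : 0 < r) {c : Fin m → ℝ} (hc : ∀ i, 0 < c i)
    (h : ∀ a ∈ A, ∀ v, ∑ i, (c i * v i) ^ 2 < r ^ 2 → a + v ∈ M) :
    ENNReal.ofReal ((volume A).toReal *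
      (1 + r * (omega m / ((∏ i, c i) * (volume A).toReal)) ^ (1 / m : ℝ)) ^ m) ≤ volume M := by
  obtain ⟨M', hMM, hM'm, hM'⟩ := exists_measurable_superset volume M
  set P := ∏ i, c i
  have hP : 0 < P := Finset.prod_pos fun i _ => hc i
  set L := Matrix.toLin' (Matrix.diagonal fun i => (c i)⁻¹)
  have hL : ∀ z i, L z i = (c i)⁻¹ * z i := fun z i => by
    simp [L, Matrix.mulVec_diagonal]
  have hLc : Continuous L := LinearMap.continuous_on_pi _
  have hdet : (Matrix.diagonal fun i => (c i)⁻¹).det = P⁻¹ := by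
    rw [Matrix.det_diagonal, Finset.prod_inv_distrib]
  have hpre : ∀ X : Set (Fin m → ℝ), MeasurableSet X →
      volume (L ⁻¹' X) = ENNReal.ofReal P * volume X := fun X hX => by
    rw [← Measure.map_apply hLc.measurable hX,
      Real.map_matrix_volume_pi_eq_smul_volume_pi (by rw [hdet]; positivity), hdet, inv_inv,
      abs_of_pos hP]
    rfl
  have hR' : ∀ z ∈ L ⁻¹' A, ∀ i, |z i| < (∑ j, c j) * |R| + 1 := fun z hz i => by
    have h1 := hR _ hz i
    rw [hL, abs_mul, abs_inv, abs_of_pos (hc i), inv_mul_lt_iff₀ (hc i)] at h1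
    have h2 : c i * R ≤ (∑ j, c j) * |R| := mul_le_mul
      (Finset.single_le_sum (fun j _ => (hc j).le) (Finset.mem_univ i)) (le_abs_self R)
      (le_of_lt ((abs_nonneg _).trans_lt (hR _ hz i))) (Finset.sum_nonneg fun j _ => (hc j).le)
    linarith
  have := hBM (L ⁻¹' A) (L ⁻¹' M') _ r (hA.preimage hLc.measurable) hR' hr fun a ha v hv =>
    hMM (by
      rw [map_add]
      refine h _ ha _ ?_
      simp only [hL]
      refine lt_of_eq_of_lt (Finset.sum_congr rfl fun i _ => ?_) hv
      rw [← mul_assoc, mul_inv_cancel₀ (hc i).ne', one_mul])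
  rw [hpre _ hA, hpre _ hM'm, ENNReal.toReal_mul, ENNReal.toReal_ofReal hP.le, mul_assoc,
    ENNReal.ofReal_mul hP.le, hM'] at this
  exact (ENNReal.mul_le_mul_iff_right (by positivity) ENNReal.ofReal_ne_top).1 this

/-- The weighted geometric mean is superadditive. -/
lemma one_add_pow_le {δ a p K : ℝ} (hδ : 0 ≤ δ) (ha : 0 ≤ a) (hp : 0 ≤ p) (hK : 0 ≤ K)
    (hKe : K ^ (m + 1) = a ^ m * p) : (1 + δ * K) ^ (m + 1) ≤ (1 + δ * a) ^ m * (1 + δ * p) := by
  set X := 1 + δ * a
  set Y := 1 + δ * p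
  have hX : 0 < X := by positivity
  have hY : 0 < Y := by positivity
  set n : ℝ := (m : ℝ) + 1
  have hn : 0 < n := by positivity
  have hnn : ((m + 1 : ℕ) : ℝ) = n := by push_cast; rfl
  have hwsum : m / n + 1 / n = 1 := by rw [← add_div, div_self hn.ne']
  have key : ∀ u v : ℝ, 0 ≤ u → 0 ≤ v →
      (u ^ m * v) ^ (1 / n) ≤ m / n * u + 1 / n * v := fun u v hu hv => by
    refine le_of_eq_of_le ?_ (Real.geom_mean_le_arith_mean2_weighted (by positivity) (by positivity)
      hu hv hwsum)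
    rw [Real.mul_rpow (by positivity) hv, ← Real.rpow_natCast u m, ← Real.rpow_mul hu]
    ring_nf
  have hroot : ∀ z : ℝ, 0 ≤ z → (z ^ (m + 1)) ^ (1 / n) = z := fun z hz => by
    rw [one_div, ← hnn]; exact Real.pow_rpow_inv_natCast hz (by omega)
  set Z := (X ^ m * Y) ^ (1 / n)
  have hZ : 0 < Z := by positivity
  have h1 := key (1 / X) (1 / Y) (by positivity) (by positivity)
  have h2 := key (δ * a / X) (δ * p / Y) (by positivity) (by positivity)
  have e1 : ((1 / X) ^ m * (1 / Y)) ^ (1 / n) = 1 / Z := by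
    rw [div_pow, one_pow, div_mul_div_comm, one_mul, Real.div_rpow zero_le_one (by positivity),
      Real.one_rpow]
  have e2 : ((δ * a / X) ^ m * (δ * p / Y)) ^ (1 / n) = δ * K / Z := by
    rw [div_pow, div_mul_div_comm, Real.div_rpow (by positivity) (by positivity),
      show (δ * a) ^ m * (δ * p) = (δ * K) ^ (m + 1) by rw [mul_pow, mul_pow, hKe, pow_succ]; ring,
      hroot _ (by positivity)]
  rw [e1] at h1
  rw [e2] at h2
  have e3 : m / n * (1 / X) + 1 / n * (1 / Y) + (m / n * (δ * a / X) + 1 / n * (δ * p / Y)) = 1 := by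
    have eX : 1 / X + δ * a / X = 1 := by rw [← add_div, div_self hX.ne']
    have eY : 1 / Y + δ * p / Y = 1 := by rw [← add_div, div_self hY.ne']
    linear_combination (m / n) * eX + (1 / n) * eY + hwsum
  have h3 : (1 + δ * K) / Z ≤ 1 := by rw [add_div]; linarith
  rw [div_le_one hZ] at h3
  calc (1 + δ * K) ^ (m + 1) ≤ Z ^ (m + 1) := pow_le_pow_left₀ (by positivity) h3 _
    _ = _ := by
      rw [show Z = (X ^ m * Y) ^ (1 / n) from rfl, one_div, ← hnn,
        Real.rpow_inv_natCast_pow (by positivity) (by omega)]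

/-- In dimension zero every nonnull set has volume one. -/
lemma toReal_volume_zero {A : Set (Fin 0 → ℝ)} (h : 0 < (volume A).toReal) :
    (volume A).toReal = 1 := by
  rcases A.eq_empty_or_nonempty with rfl | ⟨a, ha⟩
  · simp at h
  · rw [eq_univ_of_forall (s := A) fun x => (Subsingleton.elim a x) ▸ ha]
    simp [volume_pi]

/-- The slicing step. -/
theorem step (hBM : BM m) {φ : Fin m → ℝ → ℝ} (hφ : ∀ j, ConvexOn ℝ univ (φ j))
    {E N : Set (ℝ × (Fin m → ℝ))} {R L ε : ℝ} (hE : MeasurableSet E)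
    (hR : ∀ p ∈ E, |p.1| < R ∧ ∀ i, |p.2 i| < R) (hfin : wvol φ E ≠ ⊤) (hε : 0 < ε) (hL : 0 ≤ L)
    (hlip : ∀ t h, |t| < R → |h| ≤ ε →
      ∑ j, max (φ j t) (φ j (t + h)) ≤ ∑ j, φ j t + L * ε)
    (hN : ∀ p ∈ E, ∀ τ ∈ Ioo (-1 : ℝ) 1, ∀ v,
      ∑ j, (Real.exp (max (φ j p.1) (φ j (p.1 + ε * τ))) * v j) ^ 2 < ε ^ 2 * (1 - τ ^ 2) →
        (p.1 + ε * τ, p.2 + v) ∈ N) :
    ENNReal.ofReal ((wvol φ E).toReal * (1 + ε * Real.exp (-(L * ε)) *
      (omega (m + 1) / (wvol φ E).toReal) ^ (1 / (m + 1 : ℝ))) ^ (m + 1)) ≤ wvol φ N := by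
  have hφc := fun j => continuous_of_convexOn (hφ j)
  have hρ := measurable_rho hφc
  have hρ0 : ∀ t, 0 < rho φ t := fun t => Real.exp_pos _
  set e : ℝ → ℝ := fun t => (volume (Prod.mk t ⁻¹' E)).toReal
  set G : ℝ → ℝ := fun t => rho φ t * e t
  have hsl := measurable_measure_prodMk_left (ν := (volume : Measure (Fin m → ℝ))) hE
  have hGm : Measurable G := hρ.mul hsl.ennreal_toReal
  have hint : Integrable G ∧ (wvol φ E).toReal = ∫ t, G t := by
    have h := hfin
    rw [wvol_apply φ hφc hE] at h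
    have hm : AEMeasurable fun t => ENNReal.ofReal (rho φ t) * volume (Prod.mk t ⁻¹' E) :=
      ((ENNReal.measurable_ofReal.comp hρ).mul hsl).aemeasurable
    have heq : G = fun t => (ENNReal.ofReal (rho φ t) * volume (Prod.mk t ⁻¹' E)).toReal := by
      funext t; rw [ENNReal.toReal_mul, ENNReal.toReal_ofReal (hρ0 t).le]
    refine ⟨heq ▸ integrable_toReal_of_lintegral_ne_top hm h, ?_⟩
    rw [heq, integral_toReal hm (ae_lt_top' hm h), wvol_apply φ hφc hE]
  obtain ⟨hGi, hVG⟩ := hint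
  rw [hVG]
  set D := ∫ t, G t
  have hG0 : ∀ t, 0 ≤ G t := fun t => mul_nonneg (hρ0 t).le ENNReal.toReal_nonneg
  rcases (integral_nonneg hG0 : (0 : ℝ) ≤ D).eq_or_lt with hD | hD
  · rw [show D = 0 from hD.symm, zero_mul, ENNReal.ofReal_zero]
    exact zero_le
  have hGR : ∀ t, G t ≠ 0 → |t| < R := fun t ht => by
    rcases (Prod.mk t ⁻¹' E).eq_empty_or_nonempty with h | ⟨y, hy⟩
    · simp [G, e, h] at ht
    · exact (hR _ hy).1
  obtain ⟨S, T, T', hSm, hae, hTm, hTc, hT1, hS, hTG⟩ := exists_transport m hGi hGm hG0 hGR hD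
  -- a zero of `T` and the slope there
  obtain ⟨x₀, hx₀⟩ : ∃ x₀, T x₀ = 0 := by
    by_contra hne
    push Not at hne
    have hsign : (∀ x, 0 < T x) ∨ ∀ x, T x < 0 := by
      by_contra hc
      push Not at hc
      obtain ⟨⟨a, ha⟩, ⟨b, hb⟩⟩ := hc
      obtain ⟨z, hz⟩ := intermediate_value_univ a b hTc ⟨ha, hb⟩
      exact hne z hz
    have hTGi : Integrable fun x => T x * G x :=
      hGi.bdd_mul hTc.aestronglyMeasurable (Eventually.of_forall fun x => hT1 x)
    have hzero : (fun x => |T x| * G x) =ᵐ[volume] 0 := by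
      refine (integral_eq_zero_iff_of_nonneg (fun x => mul_nonneg (abs_nonneg _) (hG0 x))
        ((hGi.bdd_mul hTc.abs.aestronglyMeasurable
          (Eventually.of_forall fun x => (abs_abs (T x)).le.trans (hT1 x))))).1 ?_
      rcases hsign with h | h
      · simpa [abs_of_pos (h _)] using hTG
      · simpa [abs_of_neg (h _), integral_neg] using hTG
    have : G =ᵐ[volume] 0 := hzero.mono fun x hx =>
      (mul_eq_zero.1 hx).resolve_left (abs_ne_zero.2 (hne x))
    exact hD.ne' (integral_eq_zero_of_ae this)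
  have hsum : ConvexOn ℝ univ (∑ j, φ j) :=
    Finset.sum_induction φ (ConvexOn ℝ univ) (fun _ _ h1 h2 => h1.add h2)
      (convexOn_const 0 convex_univ) fun j _ => hφ j
  obtain ⟨d, hdm, hd⟩ := exists_subgrad (f := ∑ j, φ j) hsum
  set s := d x₀
  have hslope : ∀ x, 1 + s * (ε * T x) ≤ rho φ (x + ε * T x) / rho φ x := fun x => by
    have h1 : s * (ε * T x) ≤ d x * (ε * T x) := by
      rcases le_total x x₀ with h | h
      · refine mul_le_mul_of_nonpos_right (hdm h) (mul_nonpos_of_nonneg_of_nonpos hε.le ?_)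
        exact hx₀ ▸ hTm h
      · refine mul_le_mul_of_nonneg_right (hdm h) (mul_nonneg hε.le ?_)
        exact hx₀ ▸ hTm h
    have h2 := hd x (x + ε * T x)
    simp only [add_sub_cancel_left, Finset.sum_apply] at h2
    rw [rho, rho, ← Real.exp_sub]
    linarith [Real.add_one_le_exp (∑ j, φ j (x + ε * T x) - ∑ j, φ j x)]
  set K := (omega (m + 1) / D) ^ (1 / (m + 1 : ℝ))
  have hK0 : 0 ≤ K := Real.rpow_nonneg (div_nonneg (omega_nonneg _) hD.le) _
  set δ := ε * Real.exp (-(L * ε))
  have hLε : 0 ≤ L * ε := mul_nonneg hL hε.le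
  have hE1 : Real.exp (-(L * ε)) ≤ 1 := Real.exp_le_one_iff.2 (neg_nonpos.2 hLε)
  have hδε : δ ≤ ε := mul_le_of_le_one_right hε.le hE1
  set B := (1 + δ * K) ^ (m + 1)
  obtain ⟨N', hNN, hN'm, hN'⟩ := exists_measurable_superset (wvol φ) N
  set u : ℝ → ℝ≥0∞ := fun t => ENNReal.ofReal (rho φ t) * volume (Prod.mk t ⁻¹' N')
  -- the pointwise bound
  have hpt : ∀ x ∈ S, ENNReal.ofReal (G x * (1 + s * (ε * T x)) * B)
      ≤ ENNReal.ofReal (1 + ε * T' x) * u (x + ε * T x) := by
    intro x hx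
    obtain ⟨hxR, hGx, -, hTx, hT'0, hT'⟩ := hS x hx
    set x' := x + ε * T x
    have hex : 0 < e x := pos_of_mul_pos_right hGx (hρ0 x).le
    set b := Real.sqrt (1 - T x ^ 2)
    have hb2 : 0 < 1 - T x ^ 2 := by nlinarith [hTx.1, hTx.2]
    have hb : 0 < b := Real.sqrt_pos.2 hb2
    set c : Fin m → ℝ := fun j => Real.exp (max (φ j x) (φ j x'))
    set P := ∏ j, c j
    have hP0 : 0 < P := Finset.prod_pos fun j _ => Real.exp_pos _
    have hP : P * e x ≤ G x * Real.exp (L * ε) := by
      have hh : |ε * T x| ≤ ε := by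
        rw [abs_mul, abs_of_pos hε]; exact mul_le_of_le_one_right hε.le (hT1 x)
      have h1 : P ≤ rho φ x * Real.exp (L * ε) := by
        simp only [P, c, ← Real.exp_sum, rho, ← Real.exp_add]
        exact Real.exp_le_exp.2 (hlip x _ hxR hh)
      exact (mul_le_mul_of_nonneg_right h1 hex.le).trans_eq (by simp only [G]; ring)
    have hvol : ENNReal.ofReal (e x *
        (1 + ε * b * (omega m / (P * e x)) ^ (1 / m : ℝ)) ^ m) ≤ volume (Prod.mk x' ⁻¹' N') := by
      refine hBM.ellipsoid (R := R) (hE.preimage measurable_prodMk_left) (fun v hv => (hR _ hv).2)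
        (mul_pos hε hb) (fun j => Real.exp_pos _) fun a ha v hv => hNN ?_
      refine hN (x, a) ha (T x) hTx v (lt_of_lt_of_eq hv ?_)
      rw [mul_pow, Real.sq_sqrt hb2.le]
    set a := (omega m / G x) ^ (1 / m : ℝ)
    have ha0 : 0 ≤ a := Real.rpow_nonneg (div_nonneg (omega_nonneg m) hGx.le) _
    have hm1 : (1 : ℝ) / m ≤ 1 := by
      rcases m.eq_zero_or_pos with h | h
      · simp [h]
      · rw [div_le_one (by exact_mod_cast h)]; exact_mod_cast h
    have hga : δ * (b * a) ≤ ε * b * (omega m / (P * e x)) ^ (1 / m : ℝ) := by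
      have h1 : Real.exp (-(L * ε)) * (omega m / G x) ≤ omega m / (P * e x) := by
        rw [Real.exp_neg, inv_mul_eq_div, div_div]
        exact div_le_div_of_nonneg_left (omega_nonneg m) (by positivity) hP
      have h2 : Real.exp (-(L * ε)) ≤ Real.exp (-(L * ε)) ^ (1 / m : ℝ) := by
        conv_lhs => rw [← Real.rpow_one (Real.exp (-(L * ε)))]
        exact Real.rpow_le_rpow_of_exponent_ge (Real.exp_pos _) hE1 hm1
      calc δ * (b * a) = ε * b * (Real.exp (-(L * ε)) * a) := by ring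
        _ ≤ ε * b * (Real.exp (-(L * ε)) ^ (1 / m : ℝ) * a) := by gcongr
        _ = ε * b * (Real.exp (-(L * ε)) * (omega m / G x)) ^ (1 / m : ℝ) := by
          rw [Real.mul_rpow (Real.exp_pos _).le (div_nonneg (omega_nonneg m) hGx.le)]
        _ ≤ _ := by
          refine mul_le_mul_of_nonneg_left ?_ (by positivity)
          exact Real.rpow_le_rpow (mul_nonneg (Real.exp_pos _).le
            (div_nonneg (omega_nonneg m) hGx.le)) h1 (by positivity)
    have hKe : K ^ (m + 1) = (b * a) ^ m * T' x := by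
      have hK : K ^ (m + 1) = omega (m + 1) / D := by
        simp only [K]
        rw [one_div, show ((m : ℝ) + 1) = ((m + 1 : ℕ) : ℝ) by push_cast; ring,
          Real.rpow_inv_natCast_pow (div_nonneg (omega_nonneg _) hD.le) (by omega)]
      have ha : a ^ m * G x = omega m := by
        rcases Nat.eq_zero_or_pos m with h | h
        · subst h
          have h1 : e x = 1 := toReal_volume_zero hex
          simp [omega, G, rho, h1, toReal_volume_zero (A := bal 0 1) (omega_pos 0)]
        · simp only [a]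
          rw [one_div, Real.rpow_inv_natCast_pow (div_nonneg (omega_nonneg m) hGx.le) h.ne',
            div_mul_cancel₀ _ hGx.ne']
      rw [hK, omega_succ, ← ha, mul_pow, show b ^ m * a ^ m * T' x = a ^ m * (T' x * wt m (T x)) by
        rw [wt]; ring, hT']
      ring
    have hδ0 : 0 ≤ δ := by positivity
    have hB : B ≤ (1 + ε * b * (omega m / (P * e x)) ^ (1 / m : ℝ)) ^ m * (1 + ε * T' x) :=
      (one_add_pow_le hδ0 (by positivity) hT'0 hK0 hKe).trans (mul_le_mul
        (pow_le_pow_left₀ (by positivity) (by linarith) _)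
        (by linarith [mul_le_mul_of_nonneg_right hδε hT'0]) (by positivity)
        (pow_nonneg (by linarith [mul_nonneg hδ0 (mul_nonneg hb.le ha0)]) _))
    have hGρ : G x * (1 + s * (ε * T x)) ≤ rho φ x' * e x := by
      refine (mul_le_mul_of_nonneg_left (hslope x) hGx.le).trans_eq ?_
      simp only [G]
      field_simp [(hρ0 x).ne']
      ring
    have hBpos : 0 ≤ B := by positivity
    refine le_trans ?_ (mul_le_mul' le_rfl (mul_le_mul' le_rfl hvol))
    rw [← ENNReal.ofReal_mul (hρ0 _).le, ← ENNReal.ofReal_mul (by positivity)]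
    refine ENNReal.ofReal_le_ofReal ?_
    calc G x * (1 + s * (ε * T x)) * B ≤ rho φ x' * e x * B :=
          mul_le_mul_of_nonneg_right hGρ hBpos
      _ ≤ rho φ x' * e x * ((1 + ε * b * (omega m / (P * e x)) ^ (1 / m : ℝ)) ^ m * (1 + ε * T' x)) :=
          mul_le_mul_of_nonneg_left hB (mul_nonneg (hρ0 _).le hex.le)
      _ = _ := by ring
  -- integrate
  have hτ : StrictMono fun x => x + ε * T x := fun a b hab =>
    add_lt_add_of_lt_of_le hab (mul_le_mul_of_nonneg_left (hTm hab.le) hε.le)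
  have hchg : ∫⁻ y in (fun x => x + ε * T x) '' S, u y
      = ∫⁻ x in S, ENNReal.ofReal (1 + ε * T' x) * u (x + ε * T x) :=
    lintegral_image_eq_lintegral_deriv_mul_of_monotoneOn hSm
      (fun x hx => ((hasDerivAt_id x).add ((hS x hx).2.2.1.const_mul ε)).hasDerivWithinAt)
      (hτ.monotone.monotoneOn _) u
  have hi : Integrable fun x => G x * (1 + s * (ε * T x)) * B := by
    refine (hGi.mul_bdd (c := 1 + |s| * ε) (by fun_prop) (Eventually.of_forall fun x => ?_)).mul_const B
    rw [Real.norm_eq_abs]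
    refine (abs_add_le _ _).trans ?_
    rw [abs_one, abs_mul, abs_mul, abs_of_pos hε]
    gcongr
    exact mul_le_of_le_one_right hε.le (hT1 x)
  have htot : ∫ x in S, G x * (1 + s * (ε * T x)) * B = D * B := by
    have hzero : ∀ᵐ x, x ∉ S → G x * (1 + s * (ε * T x)) * B = 0 :=
      hae.mono fun x hx h => by simp [hx h]
    rw [setIntegral_eq_integral_of_ae_compl_eq_zero hzero, integral_mul_const]
    have hTGi : Integrable fun x => s * ε * (T x * G x) :=
      (hGi.bdd_mul hTc.aestronglyMeasurable (Eventually.of_forall fun x => hT1 x)).const_mul _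
    rw [show (fun x => G x * (1 + s * (ε * T x))) = fun x => G x + s * ε * (T x * G x) by
      funext x; ring, integral_add hGi hTGi, integral_const_mul, hTG, mul_zero, add_zero]
  calc ENNReal.ofReal (D * B)
      = ENNReal.ofReal (∫ x in S, G x * (1 + s * (ε * T x)) * B) := by rw [htot]
    _ ≤ ∫⁻ x in S, ENNReal.ofReal (G x * (1 + s * (ε * T x)) * B) := by
        rw [integral_eq_lintegral_pos_part_sub_lintegral_neg_part hi.integrableOn]
        exact (ENNReal.ofReal_le_ofReal (sub_le_self _ ENNReal.toReal_nonneg)).trans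
          ENNReal.ofReal_toReal_le
    _ ≤ ∫⁻ x in S, ENNReal.ofReal (1 + ε * T' x) * u (x + ε * T x) :=
        setLIntegral_mono' hSm hpt
    _ = _ := hchg.symm
    _ ≤ ∫⁻ y, u y := setLIntegral_le_lintegral _ _
    _ = wvol φ N := by rw [← wvol_apply φ hφc hN'm, hN']

end Vale.Agent.P219.Warped
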