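import Vale.Agent.P219.Warped.Ball

/-!
Monotone transport on the line onto the weight `(1 - s²)^(m/2)` of `(-1, 1)`.
-/

open MeasureTheory Set Filter Topology intervalIntegral
open scoped ENNReal

namespace Vale.Agent.P219.Warped

/-- The primitive of the weight. -/
noncomputable def prim (m : ℕ) (x : ℝ) : ℝ := ∫ s in (-1 : ℝ)..x, wt m s

lemma continuous_prim (m : ℕ) : Continuous (prim m) :=
  continuous_primitive (fun a b => (continuous_wt m).intervalIntegrable a b) _

lemma prim_sub (m : ℕ) (a b : ℝ) : prim m b - prim m a = ∫ s in a..b, wt m s :=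
  integral_interval_sub_left ((continuous_wt m).intervalIntegrable _ _)
    ((continuous_wt m).intervalIntegrable _ _)

lemma hasDerivAt_prim (m : ℕ) (x : ℝ) : HasDerivAt (prim m) (wt m x) x :=
  ((continuous_wt m).integral_hasStrictDerivAt _ x).hasDerivAt

lemma strictMonoOn_prim (m : ℕ) : StrictMonoOn (prim m) (Icc (-1) 1) := fun a ha b hb hab => by
  rw [← sub_pos, prim_sub]
  exact integral_pos hab (continuous_wt m).continuousOn (fun x _ => wt_nonneg m x)
    ⟨(a + b) / 2, ⟨by linarith, by linarith⟩,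
      wt_pos m ⟨by linarith [ha.1, hb.1], by linarith [ha.2, hb.2]⟩⟩

lemma prim_image (m : ℕ) : prim m '' Icc (-1) 1 = Icc 0 (mass m) := by
  have h0 : prim m (-1) = 0 := by simp [prim]
  refine Subset.antisymm ?_ ?_
  · rintro _ ⟨x, hx, rfl⟩
    have h1 := (strictMonoOn_prim m).monotoneOn (left_mem_Icc.2 (by norm_num)) hx hx.1
    have h2 := (strictMonoOn_prim m).monotoneOn hx (right_mem_Icc.2 (by norm_num)) hx.2
    exact ⟨h0 ▸ h1, h2⟩
  · have := intermediate_value_Icc (f := prim m) (by norm_num : (-1 : ℝ) ≤ 1)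
      (continuous_prim m).continuousOn
    rw [h0] at this
    exact this

/-- The quantile of the weight. -/
lemma exists_quantile (m : ℕ) : ∃ Q : ℝ → ℝ, Continuous Q ∧ Monotone Q ∧
    (∀ u, Q u ∈ Icc (-1 : ℝ) 1) ∧ ∀ u ∈ Icc 0 (mass m), prim m (Q u) = u := by
  let e : Icc (-1 : ℝ) 1 ≃o Icc 0 (mass m) :=
    ((strictMonoOn_prim m).orderIso _ _).trans (OrderIso.setCongr _ _ (prim_image m))
  refine ⟨IccExtend (mass_pos m).le fun u => (e.symm u : ℝ), ?_, ?_, fun u => ?_, fun u hu => ?_⟩
  · exact (continuous_subtype_val.comp e.symm.continuous).Icc_extend'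
  · exact Monotone.IccExtend (mass_pos m).le (fun a b h => e.symm.monotone h)
  · exact Subtype.coe_prop _
  · rw [IccExtend_of_mem _ _ hu]
    exact congrArg Subtype.val (e.apply_symm_apply ⟨u, hu⟩)

/-- The monotone transport of a compactly supported density onto the weight. -/
theorem exists_transport (m : ℕ) {G : ℝ → ℝ} {R : ℝ} (hG : Integrable G) (hGm : Measurable G)
    (hG0 : ∀ x, 0 ≤ G x) (hR : ∀ x, G x ≠ 0 → |x| < R) (hD : 0 < ∫ x, G x) :
    ∃ (S : Set ℝ) (T T' : ℝ → ℝ), MeasurableSet S ∧ (∀ᵐ x, x ∉ S → G x = 0) ∧ Monotone T ∧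
      Continuous T ∧ (∀ x, |T x| ≤ 1) ∧ (∀ x ∈ S, |x| < R ∧ 0 < G x ∧ HasDerivAt T (T' x) x ∧
        T x ∈ Ioo (-1 : ℝ) 1 ∧ 0 ≤ T' x ∧ T' x * wt m (T x) = mass m * G x / ∫ y, G y) ∧
      ∫ x, T x * G x = 0 := by
  set D := ∫ x, G x with hDdef
  set C := mass m
  have hC : 0 < C := mass_pos m
  have hR0 : 0 < R := by
    by_contra h
    have : G = 0 := funext fun x => by
      by_contra hx
      linarith [hR x hx, abs_nonneg x]
    simp [hDdef, this] at hD
  obtain ⟨Q, hQc, hQm, hQmem, hQ⟩ := exists_quantile m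
  set F : ℝ → ℝ := fun x => C / D * ∫ s in (-R)..x, G s with hFdef
  have hii : ∀ a b, IntervalIntegrable G volume a b := fun a b => hG.intervalIntegrable
  have hFc : Continuous F := continuous_const.mul (continuous_primitive hii _)
  have hFm : Monotone F := fun a b hab => by
    have h1 : (∫ s in (-R)..b, G s) - ∫ s in (-R)..a, G s = ∫ s in a..b, G s :=
      integral_interval_sub_left (hii _ _) (hii _ _)
    have h2 : 0 ≤ ∫ s in a..b, G s := integral_nonneg hab fun x _ => hG0 x
    exact mul_le_mul_of_nonneg_left (by linarith) (by positivity)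
  have hlo : ∀ x, x ≤ -R → F x = 0 := fun x hx => by
    have : ∫ s in (-R)..x, G s = 0 := by
      refine (integral_congr fun s hs => ?_).trans (integral_zero)
      rw [uIcc_of_ge hx] at hs
      by_contra hne
      have := hR s hne
      rw [abs_of_nonpos (by linarith [hs.2])] at this
      linarith [hs.2]
    simp [F, this]
  have hhi : ∀ x, R ≤ x → F x = C := fun x hx => by
    have : ∫ s in (-R)..x, G s = D := by
      refine integral_eq_integral_of_support_subset fun s hs => ?_
      have h := abs_lt.1 (hR s hs)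
      exact ⟨h.1, by linarith [h.2]⟩
    simp only [F, this]
    field_simp
  have hFmem : ∀ x, F x ∈ Icc 0 C := fun x =>
    ⟨by rw [← hlo (min x (-R)) (min_le_right _ _)]; exact hFm (min_le_left _ _),
      by rw [← hhi (max x R) (le_max_right _ _)]; exact hFm (le_max_left _ _)⟩
  obtain ⟨N, hN, hNm, hN0⟩ : ∃ N : Set ℝ,
      {x | ¬ HasDerivAt (fun y => ∫ s in (-R)..y, G s) (G x) x} ⊆ N ∧ MeasurableSet N ∧
        volume N = 0 := by
    have h : ∀ᵐ x, HasDerivAt (fun y => ∫ s in (-R)..y, G s) (G x) x :=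
      (LocallyIntegrable.ae_hasDerivAt_integral hG.locallyIntegrable).mono fun x hx => hx (-R)
    exact exists_measurable_superset_of_null (ae_iff.1 h)
  set T : ℝ → ℝ := fun x => Q (F x) with hTdef
  have hTc : Continuous T := hQc.comp hFc
  have hTm : Monotone T := hQm.comp hFm
  have hT1 : ∀ x, |T x| ≤ 1 := fun x => abs_le.2 ⟨(hQmem _).1, (hQmem _).2⟩
  set S : Set ℝ := {x | 0 < G x} \ N
  have hSm : MeasurableSet S := (measurableSet_lt measurable_const hGm).diff hNm
  set T' : ℝ → ℝ := fun x => C * G x / D / wt m (T x)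
  have hFd : ∀ x ∈ S, HasDerivAt F (C * G x / D) x := fun x hx => by
    have h := (not_not.1 fun h => hx.2 (hN h) :
      HasDerivAt (fun y => ∫ s in (-R)..y, G s) (G x) x).const_mul (C / D)
    rwa [div_mul_eq_mul_div] at h
  have hkey : ∀ x ∈ S, |x| < R ∧ 0 < G x ∧ HasDerivAt T (T' x) x ∧
      T x ∈ Ioo (-1 : ℝ) 1 ∧ 0 ≤ T' x ∧ T' x * wt m (T x) = C * G x / D := by
    intro x hx
    have hGx : 0 < G x := hx.1
    have hne : C * G x / D ≠ 0 := by positivity
    have h0 : F x ≠ 0 := fun h => hne (IsLocalMin.hasDerivAt_eq_zero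
      (Eventually.of_forall fun y => by rw [h]; exact (hFmem y).1) (hFd x hx))
    have hCx : F x ≠ C := fun h => hne (IsLocalMax.hasDerivAt_eq_zero
      (Eventually.of_forall fun y => by rw [h]; exact (hFmem y).2) (hFd x hx))
    have hT : prim m (T x) = F x := hQ _ (hFmem x)
    have hTx : T x ∈ Ioo (-1 : ℝ) 1 := by
      refine ⟨lt_of_le_of_ne (hQmem _).1 fun h => h0 ?_, lt_of_le_of_ne (hQmem _).2 fun h => hCx ?_⟩
      · rw [← hT, show T x = -1 from h.symm, prim, integral_same]
      · rw [← hT, show T x = 1 from h]; rfl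
    have hw : 0 < wt m (T x) := wt_pos m hTx
    have hu : F x ∈ Ioo 0 C :=
      ⟨lt_of_le_of_ne (hFmem x).1 (Ne.symm h0), lt_of_le_of_ne (hFmem x).2 hCx⟩
    have hQd : HasDerivAt Q (wt m (T x))⁻¹ (F x) :=
      HasDerivAt.of_local_left_inverse hQc.continuousAt (hasDerivAt_prim m _) hw.ne'
        (Eventually.mono (Icc_mem_nhds hu.1 hu.2) fun y hy => hQ y hy)
    refine ⟨hR x hGx.ne', hGx, ?_, hTx, by positivity, div_mul_cancel₀ _ hw.ne'⟩
    have := hQd.comp x (hFd x hx)
    rwa [inv_mul_eq_div] at this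
  have hae : ∀ᵐ x, x ∉ S → G x = 0 := by
    filter_upwards [measure_eq_zero_iff_ae_notMem.1 hN0] with x hx hxS
    exact le_antisymm (not_lt.1 fun h => hxS ⟨h, hx⟩) (hG0 x)
  refine ⟨S, T, T', hSm, hae, hTm, hTc, hT1, hkey, ?_⟩
  have hd : ∀ x ∈ S, HasDerivWithinAt T (T' x) S x := fun x hx => (hkey x hx).2.2.1.hasDerivWithinAt
  have hGS : ∀ᵐ x, x ∉ S → T x * G x = 0 := hae.mono fun x hx h => by rw [hx h, mul_zero]
  have hmass : ∫ s in T '' S, wt m s = C := by
    rw [integral_image_eq_integral_deriv_smul_of_monotoneOn hSm hd (hTm.monotoneOn S)]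
    simp only [smul_eq_mul]
    rw [setIntegral_congr_fun hSm fun x hx => (hkey x hx).2.2.2.2.2, MeasureTheory.integral_div,
      MeasureTheory.integral_const_mul,
      setIntegral_eq_integral_of_ae_compl_eq_zero hae, ← hDdef]
    field_simp
  have hmom : ∫ s in T '' S, s * wt m s = C / D * ∫ x, T x * G x := by
    rw [integral_image_eq_integral_deriv_smul_of_monotoneOn hSm hd (hTm.monotoneOn S),
      ← setIntegral_eq_integral_of_ae_compl_eq_zero hGS, ← MeasureTheory.integral_const_mul]
    refine setIntegral_congr_fun hSm fun x hx => ?_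
    show T' x * (T x * wt m (T x)) = _
    rw [mul_left_comm, (hkey x hx).2.2.2.2.2]; ring
  have him : MeasurableSet (T '' S) := hSm.image_of_monotoneOn (hTm.monotoneOn S)
  have hsub : T '' S ⊆ Ioc (-1) 1 := by
    rintro _ ⟨x, hx, rfl⟩; exact Ioo_subset_Ioc_self (hkey x hx).2.2.2.1
  have hiw : ∀ f : ℝ → ℝ, Continuous f → IntegrableOn f (Ioc (-1) 1) := fun f hf =>
    hf.integrableOn_Ioc
  have hrest : ∫ s in Ioc (-1) 1 \ T '' S, wt m s = 0 := by
    rw [setIntegral_sdiff him (hiw _ (continuous_wt m)) hsub, hmass, sub_eq_zero]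
    exact (intervalIntegral.integral_of_le (by norm_num)).symm
  have hz := (setIntegral_eq_zero_iff_of_nonneg_ae (Eventually.of_forall (wt_nonneg m))
    ((hiw _ (continuous_wt m)).mono_set sdiff_subset)).1 hrest
  have hodd : ∫ s in Ioc (-1 : ℝ) 1, s * wt m s = 0 := by
    rw [← intervalIntegral.integral_of_le (by norm_num : (-1 : ℝ) ≤ 1)]
    have h := intervalIntegral.integral_comp_neg (a := (-1 : ℝ)) (b := 1) (fun s => s * wt m s)
    simp only [wt, neg_sq, neg_mul, intervalIntegral.integral_neg, neg_neg] at h ⊢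
    linarith
  have hfin : ∫ s in T '' S, s * wt m s = 0 := by
    have h := setIntegral_sdiff (f := fun s => s * wt m s) him
      (hiw _ (continuous_id.mul (continuous_wt m))) hsub
    rw [hodd, setIntegral_eq_zero_of_ae_eq_zero ?_] at h
    · linarith
    · filter_upwards [(ae_restrict_iff' (measurableSet_Ioc.diff him)).1 hz] with s hs hmem
      rw [show wt m s = 0 from hs hmem, mul_zero]
  rw [hfin] at hmom
  rcases mul_eq_zero.1 hmom.symm with h | h
  · exact absurd h (by positivity)
  · exact h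

end Vale.Agent.P219.Warped
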